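import Vale.Agent.P253Z.Defs

/-!
# P253Z, block FR: auxiliary lemmas
-/

open scoped ComplexConjugate ComplexOrder Topology
open Set Metric Filter Matrix
open Vale.Agent.P272.K (Cm dz dzb cHess)

noncomputable section

namespace Vale.Agent.P253Z.FRa

variable {n : ℕ}

theorem dz_smul (j : Fin n) (c : ℂ) (f : Cm n → ℂ) :
    dz j (fun y => c * f y) = fun z => c * dz j f z := by
  funext z
  have h : (fun y => c * f y) = c • f := by funext y; simp
  rw [h]
  unfold dz
  rw [fderiv_const_smul_field]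
  simp only [Pi.smul_apply, _root_.smul_apply, smul_eq_mul]
  ring

theorem dzb_smul (j : Fin n) (c : ℂ) (f : Cm n → ℂ) :
    dzb j (fun y => c * f y) = fun z => c * dzb j f z := by
  funext z
  have h : (fun y => c * f y) = c • f := by funext y; simp
  rw [h]
  unfold dzb
  rw [fderiv_const_smul_field]
  simp only [Pi.smul_apply, _root_.smul_apply, smul_eq_mul]
  ring

theorem cHess_smul (q : ℝ) (f : Cm n → ℝ) (z : Cm n) :
    cHess (fun y => q * f y) z = (q : ℂ) • cHess f z := by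
  ext j k
  simp only [cHess, Matrix.of_apply, Matrix.smul_apply, smul_eq_mul, Complex.ofReal_mul]
  rw [dzb_smul, dz_smul]

/-- a continuous family of positive matrices over a compact set is uniformly positive -/
theorem unif {X : Type*} [TopologicalSpace X] {K : Set X} (hK : IsCompact K)
    {H : X → Matrix (Fin n) (Fin n) ℂ} (hc : ∀ j k, ContinuousOn (fun x => H x j k) K)
    (hp : ∀ x ∈ K, (H x).PosDef) :
    ∃ l : ℝ, 0 < l ∧ ∀ x ∈ K, (H x - (l : ℂ) • (1 : Matrix (Fin n) (Fin n) ℂ)).PosSemidef := by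
  set F : X × Cm n → ℝ := fun a => (star a.2 ⬝ᵥ (H a.1 *ᵥ a.2)).re with hF
  have hcF : ContinuousOn F (K ×ˢ sphere (0 : Cm n) 1) := by
    refine Complex.continuous_re.comp_continuousOn ?_
    simp only [dotProduct, mulVec]
    refine continuousOn_finsetSum _ fun j _ => ContinuousOn.mul ?_
      (continuousOn_finsetSum _ fun k _ => ContinuousOn.mul ?_ ?_)
    · exact Continuous.continuousOn (by simp only [Pi.star_apply]; fun_prop)
    · exact (hc j k).comp continuousOn_fst fun a ha => ha.1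
    · exact Continuous.continuousOn (by fun_prop)
  have hpos : ∀ a ∈ K ×ˢ sphere (0 : Cm n) 1, (0 : ℝ) < F a := by
    rintro ⟨x, v⟩ ⟨hx, hv⟩
    have hv0 : v ≠ 0 := by
      rintro rfl
      simp at hv
    exact (Complex.pos_iff.mp ((hp x hx).dotProduct_mulVec_pos hv0)).1
  obtain ⟨l, hl, hle⟩ := (hK.prod (isCompact_sphere (0 : Cm n) 1)).exists_forall_le' hcF hpos
  have hn : (0 : ℝ) < n + 1 := by positivity
  refine ⟨l / (n + 1), by positivity, fun x hx => ?_⟩
  have hherm : (H x - ((l / (n + 1) : ℝ) : ℂ) • (1 : Matrix (Fin n) (Fin n) ℂ)).IsHermitian := by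
    refine (hp x hx).isHermitian.sub ?_
    exact (PosSemidef.one.smul (Complex.zero_le_real.mpr (by positivity))).isHermitian
  refine PosSemidef.of_dotProduct_mulVec_nonneg hherm fun v => ?_
  rw [Complex.nonneg_iff]
  refine ⟨?_, (hherm.im_star_dotProduct_mulVec_self v).symm⟩
  have h1 : (star v ⬝ᵥ v).re ≤ (n + 1) * ‖v‖ ^ 2 := by
    simp only [dotProduct, Pi.star_apply, Complex.re_sum]
    calc ∑ j, (star (v j) * v j).re ≤ ∑ _j : Fin n, ‖v‖ ^ 2 := by
          refine Finset.sum_le_sum fun j _ => ?_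
          have : (star (v j) * v j).re = ‖v j‖ ^ 2 := by
            rw [Complex.star_def, Complex.conj_mul']; norm_cast
          rw [this]
          exact pow_le_pow_left₀ (norm_nonneg _) (norm_le_pi_norm v j) 2
      _ = n * ‖v‖ ^ 2 := by simp
      _ ≤ _ := by nlinarith [sq_nonneg ‖v‖]
  have h2 : l * ‖v‖ ^ 2 ≤ F (x, v) := by
    rcases eq_or_ne v 0 with rfl | hv
    · simp [hF]
    · have hn0 : 0 < ‖v‖ := norm_pos_iff.mpr hv
      have hu : ((‖v‖⁻¹ : ℝ) : ℂ) • v ∈ sphere (0 : Cm n) 1 := by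
        rw [mem_sphere_zero_iff_norm, norm_smul, Complex.norm_real, Real.norm_eq_abs,
          abs_of_pos (inv_pos.mpr hn0), inv_mul_cancel₀ hn0.ne']
      have h3 := hle (x, ((‖v‖⁻¹ : ℝ) : ℂ) • v) ⟨hx, hu⟩
      have h4 : F (x, ((‖v‖⁻¹ : ℝ) : ℂ) • v) = ‖v‖⁻¹ * (‖v‖⁻¹ * F (x, v)) := by
        simp only [hF, star_smul, mulVec_smul, smul_dotProduct, dotProduct_smul, smul_eq_mul,
          Complex.star_def, Complex.conj_ofReal, Complex.re_ofReal_mul]
      rw [h4] at h3
      have h5 : ‖v‖⁻¹ * (‖v‖⁻¹ * F (x, v)) * ‖v‖ ^ 2 = F (x, v) := by field_simp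
      rw [← h5]
      exact mul_le_mul_of_nonneg_right h3 (sq_nonneg _)
  rw [sub_mulVec, dotProduct_sub, smul_mulVec, one_mulVec, dotProduct_smul, smul_eq_mul,
    Complex.sub_re, Complex.re_ofReal_mul]
  have h6 : l / (n + 1) * (star v ⬝ᵥ v).re ≤ l * ‖v‖ ^ 2 := by
    calc l / (n + 1) * (star v ⬝ᵥ v).re ≤ l / (n + 1) * ((n + 1) * ‖v‖ ^ 2) :=
          mul_le_mul_of_nonneg_left h1 (by positivity)
      _ = l * ‖v‖ ^ 2 := by field_simp
  have h7 : F (x, v) = (star v ⬝ᵥ (H x *ᵥ v)).re := rfl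
  linarith

theorem log_le {d R A t : ℝ} (hd : 0 ≤ d) (hR : 2 ≤ R) (hA : Real.log R ≤ A) (ht : 0 ≤ t)
    (hdt : d - R ≤ t) : Real.log (d + 1) ≤ A + t + 1 := by
  have h1 : d + 1 ≤ R * (t + 2) := by nlinarith
  calc Real.log (d + 1) ≤ Real.log (R * (t + 2)) := Real.log_le_log (by linarith) h1
    _ = Real.log R + Real.log (t + 2) := Real.log_mul (by linarith) (by linarith)
    _ ≤ A + (t + 2 - 1) := add_le_add hA (Real.log_le_sub_one_of_pos (by linarith))
    _ = A + t + 1 := by ring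

end Vale.Agent.P253Z.FRa
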